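import Vale.Agent.P281.H64.Z.Defs
import Vale.Agent.P281.H364.Gen.Neat
import Vale.Agent.P281.H624.TM.ZerF

/-!
# P281 (helper349): the logarithmic form, without conditions on the exceptional divisors

`κ(Y, K_Y + Γ) ≤ kY f Δ` if `Γ` is a reduced SNC divisor and the prime divisors over `Γ` have
coefficient `1` in `Δ` (literal of helper64).
-/

open Set Filter
open Vale.Agent.P281 Vale.Agent.P281.H713.TZ.S
open Vale.Agent.P281.H64.Z
open scoped Manifold ContDiff Topology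

noncomputable section

namespace Vale.Agent.P281.H349.Z3

/-- `Γ` is a reduced SNC divisor of `Y` (or `0`), and the prime divisors of `X` which are mapped into
`Γ` have coefficient `1` in `Δ`. -/
def LogBase (n p : ℕ) {X Y : Type} [TopologicalSpace X] [Man n X] [TopologicalSpace Y] [Man p Y]
    (f : X → Y) (Δ : Set X → ℝ) (Γ : Set Y → ℝ) : Prop :=
  J.IsSNC (Cm p) Γ ∧ (∀ G, Γ G = 0 ∨ Γ G = 1) ∧
    ∀ E G, Prime n E → Γ G = 1 → f '' E ⊆ G → Δ E = 1

section
variable {n p : ℕ} {X Y : Type} [TopologicalSpace X] [Man n X] [TopologicalSpace Y] [Man p Y]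
  {f : X → Y} {Δ : Set X → ℝ} {Γ : Set Y → ℝ}

theorem surj (hf : Fibn n p f Δ) (y : Y) : ∃ x, f x = y := by
  obtain ⟨x, hx⟩ := (hf.fibres y).nonempty
  exact ⟨x, hx⟩

/-- Every point over a prime divisor `G` lies in a prime divisor which is mapped into `G`. -/
theorem exists_prime (hf : Fibn n p f Δ) {G : Set Y} (hG : Prime p G) {z : X} (hz : f z ∈ G) :
    ∃ E, Prime n E ∧ f '' E ⊆ G ∧ z ∈ E := by
  obtain ⟨_, _⟩ := hf.hausdorff
  obtain ⟨_, _⟩ := hf.manifold
  have _ := hf.compact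
  have _ := hf.connected
  have hne : ∃ x, f x ∉ G := by
    obtain ⟨e, he⟩ := hG.2.1 (f z)
    have h1 := H511.Gen.isLocalEq_not_zero he
    by_contra hcon
    push Not at hcon
    apply h1
    filter_upwards [H511.Gen.isLocalEq_mem_iff he] with y hy
    obtain ⟨x, rfl⟩ := surj hf y
    exact hy.1 (hcon x)
  have h1 := H511.Gen.isHyp_preimage (n := n) (p := p) hf.hol hG.2.1
    (H511.Gen.not_eventually_preimage hf.hol hG.2.1 hne)
  obtain ⟨-, h2⟩ := H624.TM.zerStmt n X (f ⁻¹' G) h1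
  obtain ⟨E, hE, hEG, hzE⟩ := h2 z hz
  exact ⟨E, hE, image_subset_iff.2 hEG, hzE⟩

theorem orbMor (hf : Fibn n p f Δ) (h : LogBase n p f Δ Γ) : OrbMor (Cm n) (Cm p) f Δ Γ := by
  intro z G g e w k hG hg he he0 hde hw hw0 hk hev
  have hG1 : Γ G = 1 := (h.2.1 G).resolve_left hG
  have hGp : Prime p G := h.1.2.1 G hG
  have hgz : g (f z) = 0 := by
    rw [hev.self_of_nhds, he0, zero_pow hk.ne', zero_mul]
  have hz : f z ∈ G := (H511.Gen.isLocalEq_mem_iff hg).self_of_nhds.2 hgz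
  obtain ⟨E, hE, hEG, hzE⟩ := exists_prime hf hGp hz
  have hE1 : Δ E = 1 := h.2.2 E G hE hG1 hEG
  have h0 : ∀ D, 0 ≤ Δ D := by
    intro D
    obtain ⟨q, h1, h2, -⟩ := hf.snc.2.2.1 D
    rw [h1]
    exact_mod_cast h2
  have hfin : {D | Δ D ≠ 0}.Finite := hf.snc.1
  have h1 : Δ E ≤ ∑ᶠ (D : Set X) (_ : z ∈ D), Δ D := by
    have h2 : ∑ᶠ (D : Set X) (_ : z ∈ D), Δ D = ∑ᶠ D : Set X, ∑ᶠ (_ : z ∈ D), Δ D := rfl
    have h3 : (Function.support fun D : Set X => ∑ᶠ (_ : z ∈ D), Δ D).Finite := by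
      refine hfin.subset fun D hD => ?_
      rw [Function.mem_support] at hD
      intro h4
      apply hD
      simp [h4]
    have h4 := single_le_finsum (f := fun D : Set X => ∑ᶠ (_ : z ∈ D), Δ D) E h3 (fun D =>
      finsum_nonneg fun _ => h0 D)
    simpa [hzE] using h4
  rw [hG1]
  simp only [sub_self, mul_zero]
  linarith

/-- **The logarithmic form.** -/
theorem log_le (hf : Fibn n p f Δ) (h : LogBase n p f Δ Γ) : kX p Γ ≤ kY n p f Δ := by
  have h1 := H364.Gen.kapLe_of (H364.crit H150.Gen.img) H383.Gen.compl H364.Gen.compStmt hf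
  refine (h1 Γ h.1.1 h.1.2.1 h.1.2.2.1 ?_ (orbMor hf h)).1
  intro z G hG hz
  exact subset_closure ⟨⟨G, hG, hz⟩, Filter.Eventually.of_forall fun y g hg =>
    h.1.2.2.2 y g hg⟩

end

end Vale.Agent.P281.H349.Z3
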